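import Vale.Agent.P011.D4X.H547.Cent2

/-!
The second component of a similitude which commutes with the standard involution.
-/

open NumberField

namespace Vale.Agent.P011.D4X.H547

open Vale.Agent.P011.MPQ Vale.Agent.P011.D4 Vale.Agent.P011.D4.Oct Vale.Agent.P011.E6
open Vale.Agent.P011.D4X

section snd

variable {k E : Type} [Field k] [Field E] [Algebra k E] {ρ σ : E ≃ₐ[k] E} {a b : kˣ}
  {α t κ : E}

/-- The shape of the second component. -/
theorem shape2 (h2 : (2 : E) ≠ 0) (hρ3 : ∀ x, ρ (ρ (ρ x)) = x)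
    (hcomm : ∀ x, σ (ρ x) = ρ (σ x)) (hα : α * α = algebraMap k E a) (hρα : ρ α = α)
    (hσα : σ α = -α) (hσt : σ t = t) (ht : t * ρ t * ρ (ρ t) = 1)
    {A B : Qt (up E a) (up E b) →ₗ[E] Qt (up E a) (up E b)} {X : Qt (up E a) (up E b)} {n : E}
    (hX0 : nrd X ≠ 0) (hn0 : n ≠ 0) (hσn : σ n = n)
    (hXm : X * mq a b α t = mq a b α t * qmap σ X)
    (hκ : κ * ρ n * ρ (ρ n) * ρ (nrd X) = n)
    (hA : ∀ u, A u = n • (X * u * qmap ρ (qmap ρ (star X))))
    (hB : ∀ u w, B (qmap ρ (qmap ρ w) * qmap ρ (star u)) =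
      κ • (qmap ρ (qmap ρ (B w)) * qmap ρ (star (A u))))
    (hJ : ∀ y, B (qmap σ y * (mq a b α t * star (mq a b α (t * ρ t)))) =
      qmap σ (B y) * (mq a b α t * star (mq a b α (t * ρ t))))
    (hC : A 1 = κ • (star (qmap ρ (qmap ρ (B 1))) * qmap ρ (B 1))) :
    ∃ Y : Qt (up E a) (up E b), qmap ρ Y = Y ∧ qmap σ Y = Y ∧
      nrd Y * (nrd X * ρ (nrd X) * ρ (ρ (nrd X))) = 1 ∧
      ∀ u, B u = (n * nrd X * ρ (ρ (nrd X))) • (Y * u * qmap ρ (star X)) := by
  have h0 : α ≠ 0 := by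
    rintro rfl
    rw [mul_zero] at hα
    exact (up E a).ne_zero hα.symm
  have ht0 : t ≠ 0 := by
    rintro rfl
    rw [zero_mul, zero_mul] at ht
    exact zero_ne_one ht
  have hR3 : ∀ x : Qt (up E a) (up E b), qmap ρ (qmap ρ (qmap ρ x)) = x := by
    intro x
    apply QuaternionAlgebra.ext
    · exact hρ3 _
    · exact hρ3 _
    · exact hρ3 _
    · exact hρ3 _
  have hSR : ∀ x : Qt (up E a) (up E b), qmap σ (qmap ρ x) = qmap ρ (qmap σ x) := by
    intro x
    apply QuaternionAlgebra.ext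
    · exact hcomm _
    · exact hcomm _
    · exact hcomm _
    · exact hcomm _
  have hR1 : qmap ρ (1 : Qt (up E a) (up E b)) = 1 := qmap_one ρ
  have hS1 : qmap σ (1 : Qt (up E a) (up E b)) = 1 := qmap_one σ
  obtain ⟨m, hm⟩ : ∃ m, m = mq a b α t := ⟨_, rfl⟩
  have hmn : nrd m ≠ 0 := by rw [hm, nrd_mq h2 hα]; exact ht0
  have hmS : star m = qmap σ m := by rw [hm]; exact star_mq hσα hσt
  have hM := mq_mul (a := a) (b := b) (t := t) h2 h0 hα hρα
  rw [← hm] at hXm hM hJ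
  rw [hM] at hJ
  obtain ⟨ν, hν⟩ : ∃ ν, ν = nrd X := ⟨_, rfl⟩
  rw [← hν] at hX0 hκ ⊢
  have hρν : ρ ν ≠ 0 := (map_ne_zero ρ).mpr hX0
  have hρρν : ρ (ρ ν) ≠ 0 := (map_ne_zero ρ).mpr hρν
  have hρn : ρ n ≠ 0 := (map_ne_zero ρ).mpr hn0
  have hρρn : ρ (ρ n) ≠ 0 := (map_ne_zero ρ).mpr hρn
  have hσν : σ ν = ν := by
    have h1 := congrArg nrd hXm
    rw [nrd_mul, nrd_mul, nrd_qmap, ← hν] at h1
    have h3 : (σ ν - ν) * nrd m = 0 := by linear_combination -h1
    exact sub_eq_zero.mp ((mul_eq_zero.mp h3).resolve_right hmn)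
  have hXs : nrd (qmap ρ (star X)) ≠ 0 := by
    rw [nrd_qmap, nrd_star_q, ← hν]
    exact hρν
  have hXX : X * star X = ν • (1 : Qt (up E a) (up E b)) := by rw [mul_star_q, hν]
  have hXX' : star X * X = ν • (1 : Qt (up E a) (up E b)) := by rw [star_mul_q, hν]
  -- the second component
  obtain ⟨y, hy⟩ : ∃ y, y = (κ * ρ n) • (qmap ρ (qmap ρ (B 1)) * X) := ⟨_, rfl⟩
  have hBy : ∀ u, B u = y * u * qmap ρ (star X) := by
    intro u
    have h1 := hB (star (qmap ρ (qmap ρ u))) 1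
    rw [hR1, hR1, one_mul, star_star, hR3, hA, star_smul_q, qmap_smul] at h1
    rw [h1, hy]
    simp only [star_mul, star_star, ← qmap_star, qmap_mul, hR3, smul_smul, smul_mul_assoc,
      mul_smul_comm, mul_assoc]
  have hy1 : B 1 = y * qmap ρ (star X) := by rw [hBy, mul_one]
  have hyy : y = (κ * ρ n * ν) • qmap ρ (qmap ρ y) := by
    have h1 : qmap ρ (qmap ρ (B 1)) = qmap ρ (qmap ρ y) * star X := by
      rw [hy1, qmap_mul, qmap_mul, hR3]
    calc y = (κ * ρ n) • (qmap ρ (qmap ρ y) * star X * X) := by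
          nth_rewrite 1 [hy]
          rw [h1]
      _ = _ := by
          rw [mul_assoc, hXX', mul_smul_comm, mul_one, smul_smul]
  obtain ⟨Y, hY⟩ : ∃ Y, Y = (n * ν * ρ (ρ ν))⁻¹ • y := ⟨_, rfl⟩
  have hyY : y = (n * ν * ρ (ρ ν)) • Y := by
    rw [hY, smul_smul, mul_inv_cancel₀ (mul_ne_zero (mul_ne_zero hn0 hX0) hρρν), one_smul]
  have hκ' : κ * ρ n = n / (ρ (ρ n) * ρ ν) := by
    rw [eq_div_iff (mul_ne_zero hρρn hρν)]
    linear_combination hκ
  have hRRY : qmap ρ (qmap ρ Y) = Y := by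
    have h1 : qmap ρ (qmap ρ y) = (ρ (ρ n) * ρ (ρ ν) * ρ ν) • qmap ρ (qmap ρ Y) := by
      rw [hyY, qmap_smul, qmap_smul]
      simp only [map_mul, hρ3]
    have h3 : (n * ν * ρ (ρ ν)) • Y =
        (n * ν * ρ (ρ ν)) • qmap ρ (qmap ρ Y) := by
      rw [← hyY, hyy, h1, smul_smul, hκ']
      congr 1
      field_simp
    have h4 := congrArg (fun x => (n * ν * ρ (ρ ν))⁻¹ • x) h3
    simp only [smul_smul, inv_mul_cancel₀ (mul_ne_zero (mul_ne_zero hn0 hX0) hρρν),
      one_smul] at h4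
    exact h4.symm
  have hRY : qmap ρ Y = Y := by
    have h1 := congrArg (qmap ρ) hRRY
    rw [hR3] at h1
    exact h1.symm
  have hSY : qmap σ Y = Y := by
    have h1 := hJ 1
    rw [hS1, one_mul, map_smul, hBy, hy1, qmap_mul] at h1
    have h3 : qmap ρ (star m) * qmap ρ (star X) =
        qmap σ (qmap ρ (star X)) * qmap ρ (star m) := by
      rw [← qmap_mul, ← star_mul, hXm, star_mul, ← qmap_star, hSR, ← qmap_mul]
    have h4 : (t • qmap ρ (star m) : Qt (up E a) (up E b)) = t • qmap ρ (star m) := rfl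
    have h5 : t • (y * (qmap ρ (star m) * qmap ρ (star X))) =
        t • (qmap σ y * (qmap ρ (star m) * qmap ρ (star X))) := by
      rw [← mul_assoc, h1, mul_smul_comm, mul_assoc, ← h3]
    have h6 := congrArg (fun x => t⁻¹ • x) h5
    simp only [smul_smul, inv_mul_cancel₀ ht0, one_smul] at h6
    have h7 : nrd (qmap ρ (star m) * qmap ρ (star X)) ≠ 0 := by
      rw [nrd_mul, nrd_qmap, nrd_star_q]
      exact mul_ne_zero ((map_ne_zero ρ).mpr hmn) hXs
    have h8 : y = qmap σ y := by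
      calc y = y * (qmap ρ (star m) * qmap ρ (star X)) *
            qi (qmap ρ (star m) * qmap ρ (star X)) := by
            rw [mul_assoc, mul_qi h7, mul_one]
        _ = qmap σ y * (qmap ρ (star m) * qmap ρ (star X)) *
            qi (qmap ρ (star m) * qmap ρ (star X)) := by rw [h6]
        _ = _ := by rw [mul_assoc, mul_qi h7, mul_one]
    rw [hY, qmap_smul, ← h8, map_inv₀, map_mul, map_mul, hσn, hσν, hcomm, hcomm, hσν]
  refine ⟨Y, hRY, hSY, ?_, fun u => ?_⟩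
  · have h1 : qmap ρ (B 1) = (ρ n * ρ ν * ν) • (Y * qmap ρ (qmap ρ (star X))) := by
      rw [hy1, hyY, qmap_mul, qmap_smul, hRY]
      simp only [map_mul, hρ3, smul_mul_assoc]
    have h3 : star (qmap ρ (qmap ρ (B 1))) = (ρ (ρ n) * ρ (ρ ν) * ρ ν) • (X * star Y) := by
      rw [h1, qmap_smul, qmap_mul, hR3, hRY, star_smul_q, star_mul, star_star]
      simp only [map_mul]
    have h4 : (X * star Y) * (Y * qmap ρ (qmap ρ (star X))) =
        nrd Y • (X * qmap ρ (qmap ρ (star X))) := by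
      calc _ = X * (star Y * Y) * qmap ρ (qmap ρ (star X)) := by simp only [mul_assoc]
        _ = _ := by rw [star_mul_q, mul_smul_comm, mul_one, smul_mul_assoc]
    rw [hA, mul_one, h3, h1, smul_mul_assoc, mul_smul_comm, h4, smul_smul, smul_smul,
      smul_smul] at hC
    have h8 : nrd (X * qmap ρ (qmap ρ (star X))) ≠ 0 := by
      rw [nrd_mul, nrd_qmap, nrd_qmap, nrd_star_q, ← hν]
      exact mul_ne_zero hX0 hρρν
    have h9 := smul_cancel_q h8 hC
    have h10 : n * (nrd Y * (ν * ρ ν * ρ (ρ ν))) = n * 1 := by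
      rw [mul_one]
      nth_rewrite 2 [h9]
      have h11 : κ * ρ n * ρ (ρ n) * ρ ν = n := hκ
      linear_combination (-(ν * ρ ν * ρ (ρ ν) * nrd Y)) * h11
    exact mul_left_cancel₀ hn0 h10
  · rw [hBy, hyY, smul_mul_assoc, smul_mul_assoc]

end snd

end Vale.Agent.P011.D4X.H547
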