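import Vale.Agent.P011.D4X.H547.Cent
import Vale.Agent.P011.D4X.H547.Cent3
import Vale.Agent.P011.D4X.H657.Bas
import Vale.Agent.P011.D4X.H63.Nei

/-!
The similitudes which commute with the standard involution: row CENT.
-/

open NumberField

namespace Vale.Agent.P011.D4X

open Vale.Agent.P011.MPQ Vale.Agent.P011.D4 Vale.Agent.P011.D4.Oct Vale.Agent.P011.E6
open Vale.Agent.P011.D4X.H547

section

variable {k L E : Type} [Field k] [Field L] [Field E] [Algebra k L] [Algebra k E] [Algebra L E]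
  [IsScalarTower k L E] [NeZero (2 : E)] {ρ σ : E ≃ₐ[k] E} {ρL : L ≃ₐ[k] L} {α : E}
  {a b c : kˣ} {q : Lˣ} (H : Hy ρ σ ρL α a b c q)

include H

theorem H547.exists_k {x : E} (h1 : σ x = x) (h2 : ρ x = x) : ∃ p : k, algebraMap k E p = x := by
  obtain ⟨t, rfl⟩ := exists_L H h1
  rw [H.ρL'] at h2
  obtain ⟨p, rfl⟩ := Nei.cyc_fix H.h3 H.ρ1 ((algebraMap L E).injective h2)
  exact ⟨p, IsScalarTower.algebraMap_apply k L E p⟩

theorem H547.exists_qup {Y : Qt (up E a) (up E b)} (h1 : qmap σ Y = Y) (h2 : qmap ρ Y = Y) :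
    ∃ x0 : Qt a b, qup E x0 = Y := by
  obtain ⟨p0, e0⟩ := exists_k H (congrArg QuaternionAlgebra.re h1) (congrArg QuaternionAlgebra.re h2)
  obtain ⟨p1, e1⟩ := exists_k H (congrArg QuaternionAlgebra.imI h1)
    (congrArg QuaternionAlgebra.imI h2)
  obtain ⟨p2, e2⟩ := exists_k H (congrArg QuaternionAlgebra.imJ h1)
    (congrArg QuaternionAlgebra.imJ h2)
  obtain ⟨p3, e3⟩ := exists_k H (congrArg QuaternionAlgebra.imK h1)
    (congrArg QuaternionAlgebra.imK h2)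
  exact ⟨⟨p0, p1, p2, p3⟩, QuaternionAlgebra.ext e0 e1 e2 e3⟩

theorem cent {z : AT ρ σ α a b c q} (hz : z ∈ stab0 ρ σ α a b c q) :
    ∃ (x0 : Qt a b) (x : Qt (up L a) (q * up L b)) (s : kˣ) (l : Lˣ),
      algebraMap k L (nrd x0) * (nrd x * ρL (nrd x) * ρL (ρL (nrd x))) =
        algebraMap k L ((s : k) ^ 2) ∧
      ∀ y, z.1 y = algebraMap L E (l : L) • zF ρ ρL α q x0 x s y := by
  have h2 : (2 : E) ≠ 0 := NeZero.ne _
  obtain ⟨Z, ⟨κ, hκ⟩, hZJ⟩ := z
  have hZ : ∀ x, Z (tt x) = tt (Z x) := hz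
  have hR3 : ∀ x : Qt (up E a) (up E b), qmap ρ (qmap ρ (qmap ρ x)) = x := by
    intro x
    apply QuaternionAlgebra.ext
    · exact H.ρ3 _
    · exact H.ρ3 _
    · exact H.ρ3 _
    · exact H.ρ3 _
  obtain ⟨t, ht⟩ : ∃ t, t = algebraMap L E (q : L) := ⟨_, rfl⟩
  have hN : t * ρ t * ρ (ρ t) = 1 := by
    rw [ht, H.ρL', H.ρL', ← map_mul, ← map_mul, H.hq, map_one]
  have hσt : σ t = t := by rw [ht]; exact H.σL _
  have hJf : ∀ y : Qt (up E a) (up E b), Jm ρ σ α q (⟨y, 0⟩ : OctL E a b c) =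
      ⟨mq a b α t * qmap σ y * mq a b α (t * ρ t), 0⟩ := by
    intro y
    rw [ht]
    apply Oct.ext
    · rfl
    · change qmap σ (0 : Qt (up E a) (up E b)) * _ = 0
      rw [qmap_zero, zero_mul]
  have hJs : ∀ y : Qt (up E a) (up E b), Jm ρ σ α q (⟨0, y⟩ : OctL E a b c) =
      ⟨0, qmap σ y * (mq a b α t * star (mq a b α (t * ρ t)))⟩ := by
    intro y
    rw [ht]
    apply Oct.ext
    · change _ * qmap σ (0 : Qt (up E a) (up E b)) * _ = 0
      rw [qmap_zero, mul_zero, zero_mul]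
    · rfl
  have hA : ∀ u v, fstE Z hZ (u * v) = algebraMap L E (κ : L) •
      (qmap ρ (star (fstE Z hZ (star (qmap ρ (qmap ρ u))))) *
      qmap ρ (qmap ρ (star (fstE Z hZ (star (qmap ρ v)))))) := by
    intro u v
    have h1 := hκ ⟨star (qmap ρ (qmap ρ u)), 0⟩ ⟨star (qmap ρ v), 0⟩
    rw [tri_ff, star_star, star_star, hR3, hR3, fstE_apply Z hZ, fstE_apply Z hZ, fstE_apply Z hZ,
      tri_ff] at h1
    exact congrArg Oct.fst h1
  have hJ : ∀ y, fstE Z hZ (mq a b α t * qmap σ y * mq a b α (t * ρ t)) =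
      mq a b α t * qmap σ (fstE Z hZ y) * mq a b α (t * ρ t) := by
    intro y
    have h1 := congrArg Oct.fst (hZJ ⟨y, 0⟩)
    rw [hJf, fstE_apply Z hZ, fstE_apply Z hZ, hJf] at h1
    exact h1
  obtain ⟨X, n, hX0, hn0, hσn, hXm, hkn, hAX⟩ := shape h2 H.ρ3 H.σ2 H.comm H.α2 H.ρα H.σα hσt hN
    (fstE Z hZ) hA hJ
  have hB : ∀ u w, sndE Z (qmap ρ (qmap ρ w) * qmap ρ (star u)) =
      algebraMap L E (κ : L) • (qmap ρ (qmap ρ (sndE Z w)) * qmap ρ (star (fstE Z hZ u))) := by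
    intro u w
    have h1 := congrArg Oct.snd (hκ ⟨u, 0⟩ ⟨0, w⟩)
    rw [tri_fs, fstE_apply Z hZ, sndE_apply Z hZ, sndE_apply Z hZ, tri_fs, map_neg] at h1
    have h3 : -(sndE Z (qmap ρ (qmap ρ w) * qmap ρ (star u))) =
        algebraMap L E (κ : L) • (-(qmap ρ (qmap ρ (sndE Z w)) *
          qmap ρ (star (fstE Z hZ u)))) := h1
    rw [smul_neg] at h3
    exact neg_injective h3
  have hJ2 : ∀ y, sndE Z (qmap σ y * (mq a b α t * star (mq a b α (t * ρ t)))) =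
      qmap σ (sndE Z y) * (mq a b α t * star (mq a b α (t * ρ t))) := by
    intro y
    have h1 := congrArg Oct.snd (hZJ ⟨0, y⟩)
    rw [hJs, sndE_apply Z hZ, sndE_apply Z hZ, hJs] at h1
    exact h1
  have hC : fstE Z hZ 1 = algebraMap L E (κ : L) •
      (star (qmap ρ (qmap ρ (sndE Z 1))) * qmap ρ (sndE Z 1)) := by
    have h1 := congrArg Oct.fst (hκ ⟨0, 1⟩ ⟨0, 1⟩)
    have h3 : tri ρ (⟨0, 1⟩ : OctL E a b c) ⟨0, 1⟩ = ((up E c : Eˣ) : E) • ⟨1, 0⟩ := by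
      rw [tri_ss, qmap_one, qmap_one, star_one, mul_one]
      exact Oct.ext rfl (smul_zero _).symm
    rw [h3, map_smul, fstE_apply Z hZ, sndE_apply Z hZ, tri_ss] at h1
    have h4 : ((up E c : Eˣ) : E) • fstE Z hZ 1 = algebraMap L E (κ : L) •
      (((up E c : Eˣ) : E) • (star (qmap ρ (qmap ρ (sndE Z 1))) * qmap ρ (sndE Z 1))) := h1
    rw [smul_comm] at h4
    have h5 := congrArg (fun x => ((up E c : Eˣ) : E)⁻¹ • x) h4
    simp only [inv_smul_smul₀ (up E c).ne_zero] at h5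
    exact h5
  obtain ⟨Y, hRY, hSY, hYn, hBY⟩ := shape2 h2 H.ρ3 H.comm H.α2 H.ρα H.σα hσt hN hX0 hn0 hσn hXm hkn
    (A := (fstE Z hZ).toLinearMap) (B := sndE Z) hAX hB hJ2 hC
  obtain ⟨x, rfl⟩ := exists_psiL H X (by rw [← ht]; exact hXm.symm)
  obtain ⟨x0, rfl⟩ := exists_qup H hSY hRY
  obtain ⟨l, rfl⟩ := exists_L H hσn
  have hl0 : l ≠ 0 := by
    rintro rfl
    exact hn0 (map_zero _)
  refine ⟨x0, x, 1, Units.mk0 l hl0, ?_, fun y => ?_⟩
  · apply (algebraMap L E).injective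
    rw [nrd_psiL H, nrd_qup, H.ρL', H.ρL', IsScalarTower.algebraMap_apply k L E] at hYn
    rw [map_mul, map_mul, map_mul, hYn, Units.val_one, one_pow, map_one, map_one]
  · have h1 : y = ⟨y.fst, 0⟩ + ⟨0, y.snd⟩ := by
      apply Oct.ext
      · exact (add_zero _).symm
      · exact (zero_add _).symm
    have h3 : Z y = ⟨fstE Z hZ y.fst, sndE Z y.snd⟩ := by
      nth_rewrite 1 [h1]
      rw [map_add, fstE_apply Z hZ, sndE_apply Z hZ]
      apply Oct.ext
      · exact add_zero _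
      · exact zero_add _
    change Z y = _
    rw [h3, hAX, hBY]
    apply Oct.ext
    · change _ = algebraMap L E l • (psiL α q x * y.fst * star (qmap ρ (qmap ρ (psiL α q x))))
      rw [qmap_star, qmap_star]
    · change _ = algebraMap L E l • ((algebraMap L E (nrd x * ρL (ρL (nrd x))) /
        algebraMap k E ((1 : kˣ) : k)) • (qup E x0 * y.snd * star (qmap ρ (psiL α q x))))
      rw [qmap_star, smul_smul, nrd_psiL H, H.ρL', H.ρL', Units.val_one, map_one, div_one,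
        map_mul, ← mul_assoc (algebraMap L E l)]

end

end Vale.Agent.P011.D4X
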