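import Vale.Agent.P011.D4X.Defs2
import Vale.Agent.P011.D4X.H547.Sk
import Vale.Agent.P011.E6.Five
import Vale.Agent.P011.E6I.Gal

/-!
The similitudes of the cyclic composition which commute with the standard involution.
-/

open NumberField

namespace Vale.Agent.P011.D4X.H547

open Vale.Agent.P011.MPQ Vale.Agent.P011.D4 Vale.Agent.P011.D4.Oct Vale.Agent.P011.E6
open Vale.Agent.P011.D4X

section tri

variable {k E : Type} [Field k] [Field E] [Algebra k E] {ρ : E ≃ₐ[k] E} {a b c : kˣ}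

theorem tri_ff (u v : Qt (up E a) (up E b)) :
    tri ρ (⟨u, 0⟩ : OctL E a b c) ⟨v, 0⟩ =
      ⟨qmap ρ (star u) * qmap ρ (qmap ρ (star v)), 0⟩ := by
  apply Oct.ext
  · simp [tri, omap]
  · simp [tri, omap]

theorem tri_fs (u w : Qt (up E a) (up E b)) :
    tri ρ (⟨u, 0⟩ : OctL E a b c) ⟨0, w⟩ =
      ⟨0, -(qmap ρ (qmap ρ w) * qmap ρ (star u))⟩ := by
  apply Oct.ext
  · simp [tri, omap]
  · simp [tri, omap, qmap_neg]

theorem tri_ss (v w : Qt (up E a) (up E b)) :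
    tri ρ (⟨0, v⟩ : OctL E a b c) ⟨0, w⟩ =
      ⟨((up E c : Eˣ) : E) • (star (qmap ρ (qmap ρ w)) * qmap ρ v), 0⟩ := by
  apply Oct.ext
  · simp [tri, omap, qmap_neg]
  · simp [tri, omap]

end tri

section sep

variable {F : Type} [Field F] [NeZero (2 : F)] {a b c : Fˣ}

/-- The reversal of the sign of the second component. -/
def tt (x : Oct a b c) : Oct a b c := ⟨x.fst, -x.snd⟩

theorem snd_eq_zero {Z : Oct a b c ≃ₗ[F] Oct a b c} (hZ : ∀ x, Z (tt x) = tt (Z x))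
    (u : Qt a b) : (Z ⟨u, 0⟩).snd = 0 := by
  have h1 := congrArg Oct.snd (hZ ⟨u, 0⟩)
  have h2 : tt (⟨u, 0⟩ : Oct a b c) = ⟨u, 0⟩ := by
    apply Oct.ext
    · rfl
    · exact neg_zero
  rw [h2] at h1
  have h3 : (Z ⟨u, 0⟩).snd = -(Z ⟨u, 0⟩).snd := h1
  have h4 : (2 : F) • (Z ⟨u, 0⟩).snd = 0 := by
    rw [two_smul]
    nth_rewrite 1 [h3]
    exact neg_add_cancel _
  exact (smul_eq_zero.mp h4).resolve_left (NeZero.ne 2)

theorem fst_eq_zero {Z : Oct a b c ≃ₗ[F] Oct a b c} (hZ : ∀ x, Z (tt x) = tt (Z x))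
    (u : Qt a b) : (Z ⟨0, u⟩).fst = 0 := by
  have h1 := congrArg Oct.fst (hZ ⟨0, u⟩)
  have h2 : tt (⟨0, u⟩ : Oct a b c) = -⟨0, u⟩ := by
    apply Oct.ext
    · exact neg_zero.symm
    · rfl
  rw [h2, map_neg] at h1
  have h3 : -(Z ⟨0, u⟩).fst = (Z ⟨0, u⟩).fst := h1
  have h4 : (2 : F) • (Z ⟨0, u⟩).fst = 0 := by
    rw [two_smul]
    nth_rewrite 1 [← h3]
    exact neg_add_cancel _
  exact (smul_eq_zero.mp h4).resolve_left (NeZero.ne 2)

/-- The first component of a map which commutes with the standard involution. -/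
def fstE (Z : Oct a b c ≃ₗ[F] Oct a b c) (hZ : ∀ x, Z (tt x) = tt (Z x)) :
    Qt a b ≃ₗ[F] Qt a b where
  toFun u := (Z ⟨u, 0⟩).fst
  invFun u := (Z.symm ⟨u, 0⟩).fst
  left_inv u := by
    have h1 : Z ⟨u, 0⟩ = ⟨(Z ⟨u, 0⟩).fst, 0⟩ := Oct.ext rfl (snd_eq_zero hZ u)
    change (Z.symm ⟨(Z ⟨u, 0⟩).fst, 0⟩).fst = u
    rw [← h1, LinearEquiv.symm_apply_apply]
  right_inv u := by
    have hZ' : ∀ x, Z.symm (tt x) = tt (Z.symm x) := by
      intro x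
      apply Z.injective
      rw [LinearEquiv.apply_symm_apply, hZ, LinearEquiv.apply_symm_apply]
    have h1 : Z.symm ⟨u, 0⟩ = ⟨(Z.symm ⟨u, 0⟩).fst, 0⟩ := Oct.ext rfl (snd_eq_zero hZ' u)
    change (Z ⟨(Z.symm ⟨u, 0⟩).fst, 0⟩).fst = u
    rw [← h1, LinearEquiv.apply_symm_apply]
  map_add' u v := by
    have h1 : (⟨u + v, 0⟩ : Oct a b c) = ⟨u, 0⟩ + ⟨v, 0⟩ := Oct.ext rfl (add_zero 0).symm
    rw [h1, map_add, fst_add]
  map_smul' t u := by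
    have h1 : (⟨t • u, 0⟩ : Oct a b c) = t • ⟨u, 0⟩ := Oct.ext rfl (smul_zero t).symm
    rw [h1, map_smul, fst_smul]
    rfl

theorem fstE_apply (Z : Oct a b c ≃ₗ[F] Oct a b c) (hZ : ∀ x, Z (tt x) = tt (Z x)) (u : Qt a b) :
    Z ⟨u, 0⟩ = ⟨fstE Z hZ u, 0⟩ := Oct.ext rfl (snd_eq_zero hZ u)

/-- The second component of a map which commutes with the standard involution. -/
def sndE (Z : Oct a b c ≃ₗ[F] Oct a b c) : Qt a b →ₗ[F] Qt a b where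
  toFun u := (Z ⟨0, u⟩).snd
  map_add' u v := by
    have h1 : (⟨0, u + v⟩ : Oct a b c) = ⟨0, u⟩ + ⟨0, v⟩ := Oct.ext (add_zero 0).symm rfl
    rw [h1, map_add, snd_add]
  map_smul' t u := by
    have h1 : (⟨0, t • u⟩ : Oct a b c) = t • ⟨0, u⟩ := Oct.ext (smul_zero t).symm rfl
    rw [h1, map_smul, snd_smul]
    rfl

theorem sndE_apply (Z : Oct a b c ≃ₗ[F] Oct a b c) (hZ : ∀ x, Z (tt x) = tt (Z x)) (u : Qt a b) :
    Z ⟨0, u⟩ = ⟨0, sndE Z u⟩ := Oct.ext (fst_eq_zero hZ u) rfl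

end sep

end Vale.Agent.P011.D4X.H547
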