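import Vale.Agent.P011.D4X.H547.Cent

/-!
The first component of a similitude which commutes with the standard involution.
-/

open NumberField

namespace Vale.Agent.P011.D4X.H547

open Vale.Agent.P011.MPQ Vale.Agent.P011.D4 Vale.Agent.P011.D4.Oct Vale.Agent.P011.E6
open Vale.Agent.P011.D4X

section mq

variable {k E : Type} [Field k] [Field E] [Algebra k E] {ρ σ : E ≃ₐ[k] E} {a b : kˣ} {α t : E}

theorem re_mq : (mq a b α t).re = (t + 1) / 2 := rfl
theorem imI_mq : (mq a b α t).imI = (t - 1) / (2 * α) := rfl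
theorem imJ_mq : (mq a b α t).imJ = 0 := rfl
theorem imK_mq : (mq a b α t).imK = 0 := rfl

theorem nrd_mq (h2 : (2 : E) ≠ 0) (hα : α * α = algebraMap k E a) (t : E) :
    nrd (mq a b α t) = t := by
  have h0 : α ≠ 0 := by
    rintro rfl
    rw [mul_zero] at hα
    exact (up E a).ne_zero hα.symm
  have h1 : (((up E a : Eˣ) : E)) = α * α := hα.symm
  simp only [mq, nrd, h1]
  field_simp
  ring

theorem star_mq (hσα : σ α = -α) (ht : σ t = t) :
    star (mq a b α t) = qmap σ (mq a b α t) := by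
  apply QuaternionAlgebra.ext
  · simp [re_mq, map_div₀, ht, map_ofNat]
  · simp only [imI_mq, QuaternionAlgebra.imI_star, imI_qmap, map_div₀, map_sub, map_mul, ht,
      map_one, hσα, map_ofNat]
    rw [mul_neg, div_neg]
  · simp [imJ_mq]
  · simp [imK_mq]

/-- The second quaternion of the model. -/
theorem mq_snd (h2 : (2 : E) ≠ 0) (h0 : α ≠ 0) (hρα : ρ α = α)
    (ht : t * ρ t * ρ (ρ t) = 1) :
    mq a b α (t * ρ t) = (t * ρ t) • qmap ρ (qmap ρ (star (mq a b α t))) := by
  apply QuaternionAlgebra.ext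
  · simp only [re_mq, QuaternionAlgebra.re_smul, re_qmap, QuaternionAlgebra.re_star, map_div₀,
      map_add, map_one, map_ofNat, zero_mul, add_zero, smul_eq_mul]
    field_simp
    linear_combination -ht
  · simp only [imI_mq, QuaternionAlgebra.imI_smul, imI_qmap, QuaternionAlgebra.imI_star, map_div₀,
      map_sub, map_mul, map_one, map_ofNat, map_neg, hρα, smul_eq_mul]
    field_simp
    linear_combination ht
  · simp [imJ_mq]
  · simp [imK_mq]

/-- The factor of the second component. -/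
theorem mq_mul (h2 : (2 : E) ≠ 0) (h0 : α ≠ 0) (hα : α * α = algebraMap k E a) (hρα : ρ α = α) :
    mq a b α t * star (mq a b α (t * ρ t)) = t • qmap ρ (star (mq a b α t)) := by
  have h1 : (((up E a : Eˣ) : E)) = α * α := hα.symm
  apply QuaternionAlgebra.ext
  · simp only [re_mq, imI_mq, imJ_mq, imK_mq, QuaternionAlgebra.re_mul,
      QuaternionAlgebra.re_smul, re_qmap,
      QuaternionAlgebra.re_star, QuaternionAlgebra.imI_star, QuaternionAlgebra.imJ_star,
      QuaternionAlgebra.imK_star, map_div₀, map_add, map_one, map_ofNat, zero_mul, add_zero,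
      smul_eq_mul, h1]
    field_simp
    ring
  · simp only [re_mq, imI_mq, imJ_mq, imK_mq, QuaternionAlgebra.imI_mul,
      QuaternionAlgebra.imI_smul, imI_qmap,
      QuaternionAlgebra.re_star, QuaternionAlgebra.imI_star, QuaternionAlgebra.imJ_star,
      QuaternionAlgebra.imK_star, map_div₀, map_sub, map_mul, map_one, map_ofNat, map_neg, hρα,
      zero_mul, add_zero, smul_eq_mul]
    field_simp
    ring
  · simp [imJ_mq, imK_mq]
  · simp [imJ_mq, imK_mq]

end mq

section core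

variable {k E : Type} [Field k] [Field E] [Algebra k E] {ρ σ : E ≃ₐ[k] E} {a b : kˣ} {α t κ : E}

theorem smul_cancel_q {F : Type} [Field F] {a b : Fˣ} {x : Qt a b} (hx : nrd x ≠ 0) {s t : F}
    (h : s • x = t • x) : s = t := by
  have h1 : (s - t) • x = 0 := by rw [sub_smul, h, sub_self]
  have h2 := congrArg nrd h1
  rw [nrd_smul_q] at h2
  have h3 : (s - t) ^ 2 * nrd x = 0 := by
    rw [h2]
    simp [nrd]
  exact sub_eq_zero.mp (pow_eq_zero_iff two_ne_zero |>.mp ((mul_eq_zero.mp h3).resolve_right hx))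

/-- Elements of norm one in a quadratic extension. -/
theorem exists_h90 {c : E} (hα0 : α ≠ 0) (hσα : σ α = -α) (hσ2 : ∀ x, σ (σ x) = x)
    (hc : c * σ c = 1) : ∃ d : E, d ≠ 0 ∧ d * c = σ d := by
  by_cases h : c = -1
  · exact ⟨α, hα0, by rw [h, hσα, mul_neg_one]⟩
  · refine ⟨1 + σ c, ?_, ?_⟩
    · intro h1
      apply h
      have h2 : σ c = -1 := by linear_combination h1
      have h3 := congrArg σ h2
      rw [hσ2, map_neg, map_one] at h3
      exact h3
    · rw [map_add, map_one, hσ2]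
      linear_combination hc

theorem kap_rel (hρ3 : ∀ x, ρ (ρ (ρ x)) = x)
    (A : Qt (up E a) (up E b) ≃ₗ[E] Qt (up E a) (up E b))
    (hA : ∀ u v, A (u * v) = κ • (qmap ρ (star (A (star (qmap ρ (qmap ρ u))))) *
      qmap ρ (qmap ρ (star (A (star (qmap ρ v)))))))
    {X : Qt (up E a) (up E b)} {n : E} (hX0 : nrd X ≠ 0)
    (hfin : ∀ u, A u = n • (X * u * qmap ρ (qmap ρ (star X)))) :
    κ * ρ n * ρ (ρ n) * ρ (nrd X) = n := by
  have hR3 : ∀ x : Qt (up E a) (up E b), qmap ρ (qmap ρ (qmap ρ x)) = x := by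
    intro x
    apply QuaternionAlgebra.ext
    · exact hρ3 _
    · exact hρ3 _
    · exact hρ3 _
    · exact hρ3 _
  have h1 := hA 1 1
  have hR1 : qmap ρ (1 : Qt (up E a) (up E b)) = 1 := qmap_one ρ
  rw [mul_one, hR1, hR1, star_one] at h1
  have h3 : A 1 = n • (X * qmap ρ (qmap ρ (star X))) := by rw [hfin, mul_one]
  have h4 : qmap ρ (star (A 1)) = ρ n • (X * qmap ρ (star X)) := by
    rw [h3, star_smul_q, qmap_smul, star_mul, qmap_mul, ← qmap_star, ← qmap_star, star_star,
      hR3]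
  have h5 : qmap ρ (qmap ρ (star (A 1))) =
      ρ (ρ n) • (qmap ρ X * qmap ρ (qmap ρ (star X))) := by
    rw [h4, qmap_smul, qmap_mul]
  rw [h5, h4, h3] at h1
  have h6 : qmap ρ (star X) * qmap ρ X = ρ (nrd X) • (1 : Qt (up E a) (up E b)) := by
    rw [← qmap_mul, star_mul_q, qmap_smul, hR1]
  have h7 : ρ n • (X * qmap ρ (star X)) * (ρ (ρ n) • (qmap ρ X * qmap ρ (qmap ρ (star X)))) =
      (ρ n * ρ (ρ n) * ρ (nrd X)) • (X * qmap ρ (qmap ρ (star X))) := by
    calc _ = (ρ n * ρ (ρ n)) • (X * (qmap ρ (star X) * qmap ρ X) *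
          qmap ρ (qmap ρ (star X))) := by
          simp only [mul_smul_comm, smul_mul_assoc, smul_smul, mul_assoc]
          rw [mul_comm (ρ (ρ n))]
      _ = _ := by
          rw [h6]
          simp only [mul_smul_comm, smul_mul_assoc, smul_smul, mul_one]
  rw [h7, smul_smul] at h1
  have h8 : nrd (X * qmap ρ (qmap ρ (star X))) ≠ 0 := by
    rw [nrd_mul, nrd_qmap, nrd_qmap, nrd_star_q]
    exact mul_ne_zero hX0 ((map_ne_zero ρ).mpr ((map_ne_zero ρ).mpr hX0))
  have h9 := smul_cancel_q h8 h1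
  linear_combination -h9

/-- The shape of the first component. -/
theorem shape (h2 : (2 : E) ≠ 0) (hρ3 : ∀ x, ρ (ρ (ρ x)) = x) (hσ2 : ∀ x, σ (σ x) = x)
    (hcomm : ∀ x, σ (ρ x) = ρ (σ x)) (hα : α * α = algebraMap k E a) (hρα : ρ α = α)
    (hσα : σ α = -α) (hσt : σ t = t) (ht : t * ρ t * ρ (ρ t) = 1)
    (A : Qt (up E a) (up E b) ≃ₗ[E] Qt (up E a) (up E b))
    (hA : ∀ u v, A (u * v) = κ • (qmap ρ (star (A (star (qmap ρ (qmap ρ u))))) *
      qmap ρ (qmap ρ (star (A (star (qmap ρ v)))))))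
    (hJ : ∀ y, A (mq a b α t * qmap σ y * mq a b α (t * ρ t)) =
      mq a b α t * qmap σ (A y) * mq a b α (t * ρ t)) :
    ∃ (X : Qt (up E a) (up E b)) (n : E), nrd X ≠ 0 ∧ n ≠ 0 ∧ σ n = n ∧
      X * mq a b α t = mq a b α t * qmap σ X ∧ κ * ρ n * ρ (ρ n) * ρ (nrd X) = n ∧
      ∀ u, A u = n • (X * u * qmap ρ (qmap ρ (star X))) := by
  have h0 : α ≠ 0 := by
    rintro rfl
    rw [mul_zero] at hα
    exact (up E a).ne_zero hα.symm
  have ht0 : t ≠ 0 := by
    rintro rfl
    rw [zero_mul, zero_mul] at ht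
    exact zero_ne_one ht
  have hR3 : ∀ x : Qt (up E a) (up E b), qmap ρ (qmap ρ (qmap ρ x)) = x := by
    intro x
    apply QuaternionAlgebra.ext
    · exact hρ3 _
    · exact hρ3 _
    · exact hρ3 _
    · exact hρ3 _
  have hS2 : ∀ x : Qt (up E a) (up E b), qmap σ (qmap σ x) = x := by
    intro x
    apply QuaternionAlgebra.ext
    · exact hσ2 _
    · exact hσ2 _
    · exact hσ2 _
    · exact hσ2 _
  have hSR : ∀ x : Qt (up E a) (up E b), qmap σ (qmap ρ x) = qmap ρ (qmap σ x) := by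
    intro x
    apply QuaternionAlgebra.ext
    · exact hcomm _
    · exact hcomm _
    · exact hcomm _
    · exact hcomm _
  obtain ⟨m, hm⟩ : ∃ m, m = mq a b α t := ⟨_, rfl⟩
  obtain ⟨m', hm'⟩ : ∃ m', m' = mq a b α (t * ρ t) := ⟨_, rfl⟩
  rw [← hm, ← hm'] at hJ
  rw [← hm]
  have hmn : nrd m ≠ 0 := by rw [hm, nrd_mq h2 hα]; exact ht0
  have hm'n : nrd m' ≠ 0 := by
    rw [hm', nrd_mq h2 hα]
    exact mul_ne_zero ht0 ((map_ne_zero ρ).mpr ht0)
  have hmm' : m' = (t * ρ t) • qmap ρ (qmap ρ (star m)) := by rw [hm, hm']; exact mq_snd h2 h0 hρα ht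
  have hmS : star m = qmap σ m := by rw [hm]; exact star_mq hσα hσt
  -- the autotopy
  obtain ⟨g, h, hg, hh, hAg⟩ := autotopy (E6O.H68.spq h2 hα) A
    (A1 := fun u => κ • qmap ρ (star (A (star (qmap ρ (qmap ρ u))))))
    (A2 := fun v => qmap ρ (qmap ρ (star (A (star (qmap ρ v)))))) (fun u v => by
      rw [hA, smul_mul_assoc])
  have hI : ∀ u v, g * (u * v) * h = κ • (qmap ρ (star h) * (u * qmap ρ (star g)) *
      (qmap ρ (qmap ρ (star h)) * (v * qmap ρ (qmap ρ (star g))))) := by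
    intro u v
    have h1 := hA u v
    simp only [hAg, star_mul, star_star, qmap_mul, hR3] at h1
    exact h1
  obtain ⟨s, hs0, -, hs⟩ := sandwich h2
    (P := qi g * (κ • (qmap ρ (star h) * (1 * qmap ρ (star g)) * qmap ρ (qmap ρ (star h)))))
    (R := qmap ρ (qmap ρ (star g)) * qi h) (fun v => by
      have h1 := hI 1 v
      calc _ = qi g * (κ • (qmap ρ (star h) * (1 * qmap ρ (star g)) *
            (qmap ρ (qmap ρ (star h)) * (v * qmap ρ (qmap ρ (star g)))))) * qi h := by
            simp only [mul_smul_comm, smul_mul_assoc, mul_assoc]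
        _ = qi g * (g * (1 * v) * h) * qi h := by rw [h1]
        _ = (qi g * g) * v * (h * qi h) := by simp only [mul_assoc, one_mul]
        _ = v := by rw [qi_mul hg, mul_qi hh, one_mul, mul_one])
  have hh' : h = s • qmap ρ (qmap ρ (star g)) := by
    calc h = s • (s⁻¹ • (1 : Qt (up E a) (up E b)) * h) := by
          rw [smul_mul_assoc, one_mul, smul_smul, mul_inv_cancel₀ hs0, one_smul]
      _ = s • (qmap ρ (qmap ρ (star g)) * (qi h * h)) := by rw [← hs, mul_assoc]
      _ = _ := by rw [qi_mul hh, mul_one]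
  have hAg' : ∀ u, A u = s • (g * u * qmap ρ (qmap ρ (star g))) := by
    intro u
    rw [hAg, hh', mul_smul_comm]
  have hG : nrd (qmap ρ (qmap ρ (star g))) ≠ 0 := by
    rw [nrd_qmap, nrd_qmap, nrd_star_q]
    exact (map_ne_zero ρ).mpr ((map_ne_zero ρ).mpr hg)
  have hmg : nrd (m * qmap σ g) ≠ 0 := by
    rw [nrd_mul, nrd_qmap]
    exact mul_ne_zero hmn ((map_ne_zero σ).mpr hg)
  have hgm : nrd (qmap σ (qmap ρ (qmap ρ (star g))) * m') ≠ 0 := by
    rw [nrd_mul, nrd_qmap]
    exact mul_ne_zero ((map_ne_zero σ).mpr hG) hm'n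
  have hσs : σ s ≠ 0 := (map_ne_zero σ).mpr hs0
  have hJ' : ∀ w, s • (g * (m * w * m') * qmap ρ (qmap ρ (star g))) =
      σ s • (m * (qmap σ g * w * qmap σ (qmap ρ (qmap ρ (star g)))) * m') := by
    intro w
    have h1 := hJ (qmap σ w)
    rw [hS2, hAg', hAg', qmap_smul, qmap_mul, qmap_mul, hS2, mul_smul_comm, smul_mul_assoc] at h1
    exact h1
  obtain ⟨r, hr0, hr, hr'⟩ := sandwich h2
    (P := (s / σ s) • (qi (m * qmap σ g) * (g * m)))
    (R := (m' * qmap ρ (qmap ρ (star g))) * qi (qmap σ (qmap ρ (qmap ρ (star g))) * m'))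
    (fun w => by
      calc _ = (σ s)⁻¹ • (qi (m * qmap σ g) * (s • (g * (m * w * m') *
            qmap ρ (qmap ρ (star g)))) * qi (qmap σ (qmap ρ (qmap ρ (star g))) * m')) := by
            simp only [mul_smul_comm, smul_mul_assoc, mul_assoc, smul_smul, div_eq_inv_mul]
        _ = (σ s)⁻¹ • (qi (m * qmap σ g) * (σ s • (m * (qmap σ g * w *
            qmap σ (qmap ρ (qmap ρ (star g)))) * m')) *
              qi (qmap σ (qmap ρ (qmap ρ (star g))) * m')) := by rw [hJ']
        _ = (qi (m * qmap σ g) * (m * qmap σ g)) * w *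
            ((qmap σ (qmap ρ (qmap ρ (star g))) * m') *
              qi (qmap σ (qmap ρ (qmap ρ (star g))) * m')) := by
            simp only [mul_smul_comm, smul_mul_assoc, smul_smul, inv_mul_cancel₀ hσs, one_smul,
              mul_assoc]
        _ = w := by rw [qi_mul hmg, mul_qi hgm, one_mul, mul_one])
  obtain ⟨e, he⟩ : ∃ e : E, e = r * σ s / s := ⟨_, rfl⟩
  have he1 : g * m = e • (m * qmap σ g) := by
    have h1 : qi (m * qmap σ g) * (g * m) = e • (1 : Qt (up E a) (up E b)) := by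
      have h3 := congrArg (fun x => (σ s / s) • x) hr
      simp only [smul_smul] at h3
      have h4 : σ s / s * (s / σ s) = 1 := by field_simp
      rw [h4, one_smul] at h3
      rw [h3, he]
      congr 1
      ring
    calc g * m = (m * qmap σ g) * qi (m * qmap σ g) * (g * m) := by rw [mul_qi hmg, one_mul]
      _ = (m * qmap σ g) * (qi (m * qmap σ g) * (g * m)) := by rw [mul_assoc]
      _ = _ := by rw [h1, mul_smul_comm, mul_one]
  have he2 : m' * qmap ρ (qmap ρ (star g)) =
      r⁻¹ • (qmap σ (qmap ρ (qmap ρ (star g))) * m') := by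
    calc m' * qmap ρ (qmap ρ (star g)) = (m' * qmap ρ (qmap ρ (star g))) *
          qi (qmap σ (qmap ρ (qmap ρ (star g))) * m') *
            (qmap σ (qmap ρ (qmap ρ (star g))) * m') := by
          rw [mul_assoc _ (qi _), qi_mul hgm, mul_one]
      _ = _ := by rw [hr', smul_mul_assoc, one_mul]
  have he3 : m' * qmap ρ (qmap ρ (star g)) =
      ρ (ρ e) • (qmap σ (qmap ρ (qmap ρ (star g))) * m') := by
    have h1 := congrArg (fun x => qmap ρ (qmap ρ (star x))) he1
    simp only [star_mul, star_smul_q, qmap_mul, qmap_smul] at h1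
    have h3 : qmap ρ (qmap ρ (star (qmap σ g))) = qmap σ (qmap ρ (qmap ρ (star g))) := by
      rw [← qmap_star, ← hSR, ← hSR]
    rw [hmm', smul_mul_assoc, mul_smul_comm, smul_comm (ρ (ρ e)), h1, h3]
  have he4 : r * ρ (ρ e) = 1 := by
    have h1 : r⁻¹ = ρ (ρ e) := smul_cancel_q hgm (he2.symm.trans he3)
    rw [← h1, mul_inv_cancel₀ hr0]
  have he5 : s * e * ρ (ρ e) = σ s := by
    have h1 : s * e = r * σ s := by
      rw [he]
      field_simp
    rw [h1]
    linear_combination σ s * he4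
  have he6 : e * σ e = 1 := by
    have h1 := congrArg (qmap σ) he1
    rw [qmap_mul, qmap_smul, qmap_mul, hS2] at h1
    have h3 : m * qmap σ m = t • (1 : Qt (up E a) (up E b)) := by
      rw [← hmS, mul_star_q, hm, nrd_mq h2 hα]
    have h4 : t • g = (e * σ e * t) • g := by
      calc t • g = g * (m * qmap σ m) := by rw [h3, mul_smul_comm, mul_one]
        _ = g * m * qmap σ m := by rw [mul_assoc]
        _ = e • (m * (qmap σ g * qmap σ m)) := by rw [he1, smul_mul_assoc, mul_assoc]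
        _ = (e * σ e) • (m * qmap σ m * g) := by
            rw [h1, mul_smul_comm, smul_smul, mul_assoc]
        _ = _ := by rw [h3, smul_mul_assoc, one_mul, smul_smul]
    have h5 := smul_cancel_q hg h4
    have h6 : (e * σ e - 1) * t = 0 := by linear_combination -h5
    linear_combination (mul_eq_zero.mp h6).resolve_right ht0
  obtain ⟨d, hd0, hd⟩ := exists_h90 h0 hσα hσ2 he6
  have hρd : ρ (ρ d) ≠ 0 := (map_ne_zero ρ).mpr ((map_ne_zero ρ).mpr hd0)
  have hfin : ∀ u, A u = (s / (d * ρ (ρ d))) • ((d • g) * u *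
      qmap ρ (qmap ρ (star (d • g)))) := by
    intro u
    rw [hAg', star_smul_q, qmap_smul, qmap_smul]
    simp only [mul_smul_comm, smul_mul_assoc, smul_smul]
    congr 1
    field_simp
  have hn0 : s / (d * ρ (ρ d)) ≠ 0 := div_ne_zero hs0 (mul_ne_zero hd0 hρd)
  have hX0 : nrd (d • g) ≠ 0 := by
    rw [nrd_smul_q]
    exact mul_ne_zero (pow_ne_zero 2 hd0) hg
  refine ⟨d • g, s / (d * ρ (ρ d)), hX0, hn0, ?_, ?_, ?_, hfin⟩
  · rw [map_div₀, map_mul, ← he5, ← hd, hcomm, hcomm, ← hd, map_mul, map_mul]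
    have h1 : e ≠ 0 := by
      rintro rfl
      rw [zero_mul] at he6
      exact zero_ne_one he6
    have h3 : ρ (ρ e) ≠ 0 := (map_ne_zero ρ).mpr ((map_ne_zero ρ).mpr h1)
    field_simp
  · rw [smul_mul_assoc, he1, qmap_smul, mul_smul_comm, smul_smul, hd]
  · exact kap_rel hρ3 A hA hX0 hfin

end core

end Vale.Agent.P011.D4X.H547
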