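import Vale.Agent.P011.D4X.H63.PartA
import Vale.Agent.P011.D4X.H69.Z5K

/-!
Block D4X: the parts of the same class, moved along an element of the finite residual, and from
an involution in good position.
-/

open NumberField Topology

set_option linter.unusedSectionVars false

namespace Vale.Agent.P011.D4X

open Vale.Agent.P011.MPQ Vale.Agent.P011.D4 Vale.Agent.P011.D4.Oct Vale.Agent.P011.E6

section move

variable {k L E : Type} [Field k] [Field L] [Field E]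
  [Algebra k L] [Algebra k E] [Algebra L E]
  [IsScalarTower k L E] [NeZero (2 : E)] {ρ σ : E ≃ₐ[k] E} {ρL : L ≃ₐ[k] L} {α : E}
  {a b c : kˣ} {q : Lˣ} (H : Hy ρ σ ρL α a b c q)

include H

/-- The parts are transported along an element of the finite residual. -/
theorem Part.move {b' c' b'' c'' : kˣ} {j l j'' l'' : Oct a b c} (h : Trip a b' c' gi j l)
    (h'' : Trip a b'' c'' gi j'' l'') {n : OctL E a b c ≃ₗ[E] OctL E a b c}
    (hn : n ∈ Rs ρ σ α a b c q) (hc : n * tQ E h * n⁻¹ = tQ E h'') {κ : Lˣ}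
    (hp : ∃ w w' : AT ρ σ α a b c q, w ∈ stab0 ρ σ α a b c q ∧ w' ∈ stab ρ σ α q h'' ∧
      IsKap ρ w.1 κ ∧ IsKap ρ w'.1 κ ∧ IsN ρ σ α a b c q (w * w'⁻¹)) :
    ∃ w w' : AT ρ σ α a b c q, w ∈ stab0 ρ σ α a b c q ∧ w' ∈ stab ρ σ α q h ∧
      IsKap ρ w.1 κ ∧ IsKap ρ w'.1 κ ∧ IsN ρ σ α a b c q (w * w'⁻¹) := by
  obtain ⟨w, w2, hw, hw2, hk, hk2, hN⟩ := hp
  obtain ⟨nA, rfl⟩ : ∃ nA : AT ρ σ α a b c q, nA.1 = n := ⟨⟨n, GT_le_AT (Rs_le hn)⟩, rfl⟩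
  have hnN : nA ∈ H.NA := ⟨1, nA.1, hn, fun x => by rw [Units.val_one, map_one, one_smul]⟩
  have hkn : kap nA = 1 := kap_of_GT (Rs_le hn)
  refine ⟨w, nA⁻¹ * w2 * nA, hw, ?_, hk, ?_, ?_⟩
  · change nA.1⁻¹ * w2.1 * nA.1 * tQ E h = tQ E h * (nA.1⁻¹ * w2.1 * nA.1)
    have h1 : w2.1 * tQ E h'' = tQ E h'' * w2.1 := hw2
    rw [← hc] at h1
    calc nA.1⁻¹ * w2.1 * nA.1 * tQ E h
        = nA.1⁻¹ * (w2.1 * (nA.1 * tQ E h * nA.1⁻¹)) * nA.1 := by group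
      _ = nA.1⁻¹ * (nA.1 * tQ E h * nA.1⁻¹ * w2.1) * nA.1 := by rw [h1]
      _ = tQ E h * (nA.1⁻¹ * w2.1 * nA.1) := by group
  · have e2 : kap (nA⁻¹ * w2 * nA) = κ := by
      rw [kap_mul, kap_mul, kap_inv, hkn, inv_one, one_mul, mul_one, kap_eq hk2]
    rw [← e2]
    exact isKap_kap _
  · have e3 : w * (nA⁻¹ * w2 * nA)⁻¹ = (w * w2⁻¹) * (w2 * nA⁻¹ * w2⁻¹) * nA := by group
    rw [e3]
    exact H.NA.mul_mem (H.NA.mul_mem hN
      ((Hy.NA_normal H).conj_mem _ (H.NA.inv_mem hnN) w2)) hnN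

end move

end Vale.Agent.P011.D4X
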