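import Vale.Agent.P011.D4X.H547.PartA
import Vale.Agent.P011.D4X.H553.KC
import Vale.Agent.P011.D4X.H69.NearGen
import Vale.Agent.P011.D4X.H63.Nei

/-!
Block D4X: the parts of the same class: the places, the embeddings over the noncompact places, the
parts from one conjugation in the model of the new quadratic field.
-/

open NumberField Topology Filter
open scoped ComplexConjugate

set_option linter.unusedSectionVars false

namespace Vale.Agent.P011.D4X

open Vale.Agent.P011.MPQ Vale.Agent.P011.D4 Vale.Agent.P011.D4.Oct Vale.Agent.P011.E6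

/-! ### Topology -/

theorem Part.nh_mono {E : Type} [Field E] {a b c : Eˣ} {S T : Set (E →+* ℂ)} (h : S ⊆ T)
    (v0 : Oct a b c) : nh T v0 ≤ nh S v0 :=
  tendsto_iff_comap.1 (tendsto_pi_nhds.2 fun p => tendsto_nh v0 (h p.1.2) p.2)

section places

variable {k L : Type} [Field k] [Field L] [Algebra k L]

/-- The real places of `k` which extend to a real place of `L`, where `a` is negative. -/
def Part.S (k L : Type) [Field k] [Field L] [Algebra k L] (a : kˣ) : Set (k →+* ℝ) :=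
  {τ | τ (a : k) < 0 ∧ ∃ w : L →+* ℝ, w.comp (algebraMap k L) = τ}

/-- The same places, as complex embeddings. -/
def Part.Sk (k L : Type) [Field k] [Field L] [Algebra k L] (a : kˣ) : Set (k →+* ℂ) :=
  {τ | ∃ τ' ∈ Part.S k L a, Complex.ofRealHom.comp τ' = τ}

theorem Part.Sk_finite [NumberField k] (a : kˣ) : (Part.Sk k L a).Finite :=
  ((Set.toFinite (Part.S k L a)).image fun τ' => Complex.ofRealHom.comp τ').subset (by
    rintro τ ⟨τ', h, rfl⟩
    exact ⟨τ', h, rfl⟩)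

variable {E1 : Type} [Field E1] [Algebra k E1] [Algebra L E1] [IsScalarTower k L E1]
  {ρ1 σ1 : E1 ≃ₐ[k] E1} {ρL : L ≃ₐ[k] L} {α1 : E1} {a a1 b1 c1 : kˣ} {q1 : Lˣ}

theorem Part.Bd_sub (H1 : Hy ρ1 σ1 ρL α1 a1 b1 c1 q1)
    (hs : ∀ τ : k →+* ℝ, τ (a1 : k) < 0 → τ (a : k) < 0) :
    Bd ρ1 σ1 q1 ⊆ {W | W.comp (algebraMap k E1) ∈ Part.Sk k L a} := by
  rintro W ⟨h1, -⟩
  have h2 : ComplexEmbedding.IsReal (W.comp (algebraMap L E1)) := by
    rw [ComplexEmbedding.isReal_iff]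
    apply RingHom.ext
    intro t
    rw [ComplexEmbedding.conjugate_coe_eq]
    change conj (W (algebraMap L E1 t)) = W (algebraMap L E1 t)
    rw [← h1, H1.σL]
  have h3 : ∀ t : L, ((h2.embedding t : ℝ) : ℂ) = W (algebraMap L E1 t) := fun t =>
    h2.coe_embedding_apply t
  have h4 : (W α1).re = 0 := by
    have h5 := h1 α1
    rw [H1.σα, map_neg] at h5
    have h6 := congrArg Complex.re h5
    rw [Complex.neg_re, Complex.conj_re] at h6
    linarith
  have h5 : W α1 ≠ 0 := by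
    rw [map_ne_zero]
    intro h0
    have h6 := H1.α2
    rw [h0, mul_zero] at h6
    exact a1.ne_zero ((map_eq_zero (algebraMap k E1)).1 h6.symm)
  have h6 : h2.embedding (algebraMap k L (a1 : k)) = -((W α1).im ^ 2) := by
    have h7 := congrArg Complex.re (h3 (algebraMap k L (a1 : k)))
    rw [Complex.ofReal_re, ← IsScalarTower.algebraMap_apply, ← H1.α2, map_mul, Complex.mul_re, h4]
      at h7
    rw [h7]
    ring
  have h7 : (W α1).im ≠ 0 := fun h0 => h5 (Complex.ext h4 h0)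
  refine ⟨h2.embedding.comp (algebraMap k L), ⟨?_, _, rfl⟩, ?_⟩
  · apply hs
    change h2.embedding (algebraMap k L (a1 : k)) < 0
    rw [h6]
    have := sq_pos_of_ne_zero h7
    linarith
  · apply RingHom.ext
    intro t
    change ((h2.embedding (algebraMap k L t) : ℝ) : ℂ) = W (algebraMap k E1 t)
    rw [h3, ← IsScalarTower.algebraMap_apply]

end places

section zfive

variable {k L E E1 O : Type} [Field k] [Field L] [Field E] [Field E1] [Field O] [Algebra k L]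
  [Algebra k E] [Algebra L E] [IsScalarTower k L E] [Algebra k E1] [Algebra L E1]
  [IsScalarTower k L E1] [Algebra k O] [Algebra E O] [Algebra E1 O] [IsScalarTower k E O]
  [IsScalarTower k E1 O] [NeZero (2 : k)] [NeZero (2 : E)] [NeZero (2 : E1)] [NeZero (2 : O)]
  {ρ σ : E ≃ₐ[k] E} {ρL : L ≃ₐ[k] L} {α : E} {a b c : kˣ} {q : Lˣ}
  {ρ1 σ1 : E1 ≃ₐ[k] E1} {α1 : E1} {a1 b1 c1 : kˣ} {q1 : Lˣ}
  {ρ' σ' : O ≃ₐ[k] O} {b' c' : kˣ} {j l : Oct a b c}

/-- **Z5**, from one singular element. -/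
theorem Part.z5v (H1 : Hy ρ1 σ1 ρL α1 a1 b1 c1 q1)
    {u : OctL O a1 b1 c1 ≃ₗ[O] OctL O a b c}
    (φ : AT ρ σ α a b c q ≃* AT ρ1 σ1 α1 a1 b1 c1 q1)
    (hφ : ∀ (z : AT ρ σ α a b c q) (zO : OctL O a b c ≃ₗ[O] OctL O a b c),
      (∀ x, zO (oO O x) = oO O (z.1 x)) → ∀ x, u (oO O ((φ z).1 x)) = zO (u (oO O x)))
    (hκ : ∀ (z : AT ρ σ α a b c q) (κ : Lˣ), IsKap ρ z.1 κ → IsKap ρ1 (φ z).1 κ)
    (h : Trip a b' c' gi j l) {v : OctL E1 a1 b1 c1}
    (hvt : tQ O h (u (oO O v)) = -u (oO O v))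
    {y : AT ρ1 σ1 α1 a1 b1 c1 q1} {t : E1} (ht : t ≠ 0)
    (hyt : y.1 (tri ρ1 v (Jm ρ1 σ1 α1 q1 v)) = t • ep α1) :
    ∃ (b2 c2 : kˣ) (j1 l1 : Oct a1 b1 c1)
      (h1 : Trip a1 b2 c2 gi j1 l1), y * φ (tAT ρ σ α q h) * y⁻¹ = tAT ρ1 σ1 α1 q1 h1 := by
  set T := φ (tAT ρ σ α q h) with hT
  have hTv : T.1 v = -v := by
    apply oO_inj (O := O)
    apply u.injective
    rw [hφ (tAT ρ σ α q h) (tQ O h) (fun x => tQ_oO h x), hvt, oO_neg, map_neg]
  have hTk : IsKap ρ1 T.1 (1 : Lˣ) := hκ _ _ (tAT_kap h)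
  have hneg : Jm ρ1 σ1 α1 q1 (-v) = -Jm ρ1 σ1 α1 q1 v := by
    ext1
    · change mq a1 b1 α1 _ * qmap σ1 (-v.fst) * _ = -(mq a1 b1 α1 _ * qmap σ1 v.fst * _)
      rw [qmap_neg, mul_neg, neg_mul]
    · change qmap σ1 (-v.snd) * _ = -(qmap σ1 v.snd * _)
      rw [qmap_neg, neg_mul]
  have hTs : T.1 (tri ρ1 v (Jm ρ1 σ1 α1 q1 v)) = tri ρ1 v (Jm ρ1 σ1 α1 q1 v) := by
    rw [hTk, Units.val_one, map_one, one_smul, T.2.2, hTv, hneg, tri_neg_left, tri_neg_right,
      neg_neg]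
  set S := y * T * y⁻¹ with hS
  have hSS : S * S = 1 := by
    have e1 : T * T = 1 := by rw [hT, ← map_mul, tAT_sq, map_one]
    calc S * S = y * (T * T) * y⁻¹ := by rw [hS]; group
      _ = 1 := by rw [e1]; group
  have hS1 : S ≠ 1 := by
    intro h1
    apply tAT_ne (ρ := ρ) (σ := σ) (α := α) (q := q) h
    apply φ.injective
    rw [map_one, ← hT]
    have e2 : T = y⁻¹ * S * y := by rw [hS]; group
    rw [e2, h1]
    group
  have hSe : S.1 (ep α1) = ep α1 := by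
    have e3 : y.1⁻¹ (t • ep α1) = tri ρ1 v (Jm ρ1 σ1 α1 q1 v) := by
      rw [← hyt]
      exact y.1.symm_apply_apply _
    have e4 : S.1 (t • ep α1) = t • ep α1 := by
      change y.1 (T.1 (y.1⁻¹ (t • ep α1))) = t • ep α1
      rw [e3, hTs, hyt]
    rw [map_smul] at e4
    exact smul_right_injective _ ht e4
  have hSk : IsKap ρ1 S.1 (1 : Lˣ) := by
    obtain ⟨κ, hκy⟩ := y.2.1
    have e5 := (hκy.mul hTk).mul hκy.inv
    have e6 : κ * 1 * κ⁻¹ = 1 := by group
    rw [e6] at e5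
    exact e5
  have hSG : S.1 ∈ GT ρ1 σ1 α1 a1 b1 c1 q1 := by
    refine ⟨fun x z => ?_, S.2.2⟩
    rw [hSk, Units.val_one, map_one, one_smul]
  obtain ⟨b2, c2, j1, l1, h1, h2⟩ := exists_tQ H1 hSG (fun h0 => hS1 (Subtype.ext h0))
    (congrArg Subtype.val hSS) hSe
  exact ⟨b2, c2, j1, l1, h1, Subtype.ext h2⟩

end zfive

section core

variable {k L E E1 O : Type} [Field k] [Field L] [Field E] [Field E1] [Field O] [Algebra k L]
  [Algebra k E] [Algebra L E] [Algebra k E1] [Algebra L E1] [Algebra k O] [Algebra L O]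
  [Algebra E O] [Algebra E1 O] [IsScalarTower k L E] [IsScalarTower k L E1]
  [IsScalarTower k L O]
  [IsScalarTower k E O] [IsScalarTower k E1 O] [IsScalarTower L E O] [IsScalarTower L E1 O]
  [NeZero (2 : k)] [NeZero (2 : E)] [NeZero (2 : E1)]
  {a b c a1 b1 c1 : kˣ} {q : Lˣ}
  {ρ σ : E ≃ₐ[k] E} {ρL : L ≃ₐ[k] L} {α : E} {D : k} {w0 : Qt a b}
  {w : Qt (up L a) (q * up L b)} {ρ1 σ1 : E1 ≃ₐ[k] E1} {α1 : E1} {ρ' σ' τ' : O ≃ₐ[k] O}
  {q1 : Lˣ} {u : OctL O a1 b1 c1 ≃ₗ[O] OctL O a b c}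
  {φ : AT ρ σ α a b c q ≃* AT ρ1 σ1 α1 a1 b1 c1 q1}

/-- The parts, from one conjugation in the new model. -/
theorem Part.core1 (X : KCX ρ σ ρL α D w0 w ρ1 σ1 α1 ρ' σ' τ' q1 u φ)
    (hN : ∀ {b' c' : kˣ} {j l : Oct a1 b1 c1} (h : Trip a1 b' c' gi j l)
      {z : AT ρ1 σ1 α1 a1 b1 c1 q1}, z ∈ stab ρ1 σ1 α1 q1 h → kap z = 1 →
      IsN ρ1 σ1 α1 a1 b1 c1 q1 z)
    {b' c' : kˣ} {j l : Oct a b c} (h : Trip a b' c' gi j l)
    {y' : AT ρ1 σ1 α1 a1 b1 c1 q1} (hy' : y' ∈ stabs ρ1 σ1 α1 a1 b1 c1 q1) {b2 c2 : kˣ}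
    {j1 l1 : Oct a1 b1 c1} {h1 : Trip a1 b2 c2 gi j1 l1}
    (hy1 : y' * φ (tAT ρ σ α q h) * y'⁻¹ = tAT ρ1 σ1 α1 q1 h1) {x y : L} (κ : Lˣ)
    (hκ : (κ : L) = x ^ 2 - algebraMap k L D * y ^ 2) :
    ∃ w w' : AT ρ σ α a b c q, w ∈ stab0 ρ σ α a b c q ∧ w' ∈ stab ρ σ α q h ∧
      IsKap ρ w.1 κ ∧ IsKap ρ w'.1 κ ∧ IsN ρ σ α a b c q (w * w'⁻¹) := by
  have he : (algebraMap L E1 x + algebraMap L E1 y * α1) *
      σ1 (algebraMap L E1 x + algebraMap L E1 y * α1) = algebraMap L E1 (κ : L) := by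
    rw [map_add, map_mul, X.H1.σL, X.H1.σL, X.H1.σα, hκ]
    simp only [map_sub, map_mul, map_pow]
    rw [← IsScalarTower.algebraMap_apply, ← X.T.α12]
    ring
  have he0 : algebraMap L E1 x + algebraMap L E1 y * α1 ≠ 0 := by
    intro h0
    rw [h0, zero_mul] at he
    exact κ.ne_zero ((map_eq_zero (algebraMap L E1)).1 he.symm)
  exact Part.of_iso X.H1 X.kp X.st0 hN h hy' h1 (fun z hz => z5_stab hy1 hz) he0 he.symm

end core

section triv

variable {k L E : Type} [Field k] [Field L] [Field E]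
  [Algebra k L] [Algebra k E] [Algebra L E]
  [IsScalarTower k L E] [NeZero (2 : E)] {ρ σ : E ≃ₐ[k] E} {ρL : L ≃ₐ[k] L} {α : E}
  {a b c : kˣ} {q : Lˣ} (H : Hy ρ σ ρL α a b c q)

include H

/-- The case `D ∈ a k²`. -/
theorem Part.triv {b' c' : kˣ} {j l : Oct a b c} (h : Trip a b' c' gi j l) {r : k} {x y : L}
    (κ : Lˣ) (hκ : (κ : L) = x ^ 2 - algebraMap k L (a * r ^ 2) * y ^ 2) :
    ∃ w w' : AT ρ σ α a b c q, w ∈ stab0 ρ σ α a b c q ∧ w' ∈ stab ρ σ α q h ∧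
      IsKap ρ w.1 κ ∧ IsKap ρ w'.1 κ ∧ IsN ρ σ α a b c q (w * w'⁻¹) := by
  obtain ⟨y2, hy2⟩ : ∃ y2 : L, (κ : L) = x ^ 2 - algebraMap k L a * y2 ^ 2 :=
    ⟨algebraMap k L r * y, by rw [hκ, map_mul, map_pow]; ring⟩
  have he : (algebraMap L E x + algebraMap L E y2 * α) *
      σ (algebraMap L E x + algebraMap L E y2 * α) = algebraMap L E (κ : L) := by
    rw [map_add, map_mul, H.σL, H.σL, H.σα, hy2]
    simp only [map_sub, map_mul, map_pow]
    rw [← IsScalarTower.algebraMap_apply, ← H.α2]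
    ring
  have he0 : algebraMap L E x + algebraMap L E y2 * α ≠ 0 := by
    intro h0
    rw [h0, zero_mul] at he
    exact κ.ne_zero ((map_eq_zero (algebraMap L E)).1 he.symm)
  obtain ⟨z, κ', hz1, hz2, hz3⟩ := exists_tor H _ he0
  have e1 : κ' = κ := by
    apply Units.ext
    apply (algebraMap L E).injective
    rw [hz2, he]
  rw [e1] at hz1
  refine ⟨z, z, Part.mem_stab0 trip_std (hz3 trip_std), hz3 h, hz1, hz1, ?_⟩
  rw [mul_inv_cancel]
  exact H.NA.one_mem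

variable [NumberField k] [NumberField L]

/-- A good number which is not in `a k²` is not a square in `E`. -/
theorem Part.nsq {D : k} (hD0 : D ≠ 0) {w : Qt a b} (hw0 : w.re = 0) (hw : w * w = D • 1)
    (hns : ∀ r : k, D ≠ a * r ^ 2) (x : E) : x * x ≠ algebraMap k E D := by
  intro hx
  have h2 : (2 : E) ≠ 0 := NeZero.ne 2
  have hx0 : x ≠ 0 := by
    rintro rfl
    rw [mul_zero] at hx
    exact hD0 ((map_eq_zero (algebraMap k E)).1 hx.symm)
  have h1 : (ρ x - x) * (ρ x + x) = 0 := by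
    have h3 := congrArg ρ hx
    rw [map_mul, ρ.commutes] at h3
    linear_combination h3 - hx
  have hfix : ρ x = x := by
    rcases mul_eq_zero.1 h1 with h3 | h3
    · exact sub_eq_zero.1 h3
    · exfalso
      have h4 : ρ x = -x := by linear_combination h3
      have h5 := H.ρ3 x
      rw [h4, map_neg, h4, neg_neg, h4] at h5
      have h6 : (2 : E) * x = 0 := by linear_combination -h5
      exact hx0 ((mul_eq_zero.1 h6).resolve_left h2)
  obtain ⟨p0, p1, rfl⟩ := Nei.fix H hfix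
  have h3 : algebraMap L E (algebraMap k L (p0 * p0 + a * (p1 * p1) - D)) +
      algebraMap L E (algebraMap k L (2 * (p0 * p1))) * α = 0 := by
    rw [← IsScalarTower.algebraMap_apply, ← IsScalarTower.algebraMap_apply]
    simp only [map_sub, map_add, map_mul, map_ofNat]
    linear_combination hx - (algebraMap k E p1 * algebraMap k E p1) * H.α2
  obtain ⟨h4, h5⟩ := Nei.uniq H h3
  have h4' := (map_eq_zero (algebraMap k L)).1 h4
  have h5' := (map_eq_zero (algebraMap k L)).1 h5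
  have h5'' : p0 * p1 = 0 := (mul_eq_zero.1 h5').resolve_left two_ne_zero
  rcases mul_eq_zero.1 h5'' with h6 | h6
  · apply hns p1
    rw [h6] at h4'
    linear_combination -h4'
  · rw [h6] at h4'
    have h7 : D = p0 * p0 := by linear_combination -h4'
    -- `w` would be a zero divisor
    have h8 : nrd (w + p0 • 1 : Qt a b) = 0 := by
      have h9 := KCx.nrd_of_sq hw0 hw
      have h10 : nrd (w + p0 • 1 : Qt a b) = p0 ^ 2 + nrd w := by
        simp only [nrd, QuaternionAlgebra.re_add, QuaternionAlgebra.imI_add,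
          QuaternionAlgebra.imJ_add, QuaternionAlgebra.imK_add, QuaternionAlgebra.re_smul,
          QuaternionAlgebra.imI_smul, QuaternionAlgebra.imJ_smul, QuaternionAlgebra.imK_smul,
          QuaternionAlgebra.re_one, QuaternionAlgebra.imI_one, QuaternionAlgebra.imJ_one,
          QuaternionAlgebra.imK_one, hw0, smul_eq_mul]
        ring
      rw [h10, h9, h7]
      ring
    have h9 := H.hdiv.aniso _ h8
    have h10 := congrArg QuaternionAlgebra.re h9
    simp only [QuaternionAlgebra.re_add, QuaternionAlgebra.re_smul, QuaternionAlgebra.re_one,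
      QuaternionAlgebra.re_zero, hw0, smul_eq_mul, zero_add, mul_one] at h10
    rw [h7, h10, mul_zero] at hD0
    exact hD0 rfl

end triv

end Vale.Agent.P011.D4X
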