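import Mathlib

/-!
Block D4X: the sign of the new parameter after a change of the quadratic field.
-/

namespace Vale.Agent.P011.D4X.H547

/-- The values of `q` and `q₁` at a complex place whose conjugation is `σ τ` have the same sign. -/
theorem sign_q1 {k O : Type} [Field k] [Field O] [Algebra k O] {σ τ : O ≃ₐ[k] O}
    (hτ : ∀ x, τ (τ x) = x) (hστ : ∀ x, σ (τ x) = τ (σ x)) {lam v q q1 : O} (hlam0 : lam ≠ 0)
    (hv0 : v ≠ 0) (hlam : lam * σ lam = q) (hv : τ lam * σ v = lam * v) (hq1 : q1 = v * τ v)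
    {W : O →+* ℂ} (hW : ∀ x, W (σ (τ x)) = (starRingEnd ℂ) (W x)) {rq r1 : ℝ}
    (wq : W q = (rq : ℂ)) (w1 : W q1 = (r1 : ℂ)) : 0 < rq * r1 := by
  have h1 : τ lam * τ v = lam * σ (τ v) := by
    have h := congrArg τ hv
    rw [map_mul, map_mul, hτ, ← hστ] at h
    exact h.symm
  have h2 : W q1 * (W (τ lam) * (starRingEnd ℂ) (W (τ lam))) =
      (W v * (starRingEnd ℂ) (W v)) * W q := by
    rw [← hW, ← hW, hτ, ← map_mul, ← map_mul, ← map_mul, ← map_mul, hq1, ← hlam]
    congr 1
    linear_combination v * σ lam * h1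
  rw [w1, wq, Complex.mul_conj, Complex.mul_conj] at h2
  have h3 : r1 * Complex.normSq (W (τ lam)) = Complex.normSq (W v) * rq := by exact_mod_cast h2
  have h4 : 0 < Complex.normSq (W (τ lam)) := by
    rw [Complex.normSq_pos]
    exact (map_ne_zero W).2 ((map_ne_zero τ).2 hlam0)
  have h5 : 0 < Complex.normSq (W v) := by
    rw [Complex.normSq_pos]
    exact (map_ne_zero W).2 hv0
  have hr : rq ≠ 0 := by
    intro h0
    rw [h0, Complex.ofReal_zero, map_eq_zero] at wq
    have h6 : lam * σ lam ≠ 0 := mul_ne_zero hlam0 ((map_ne_zero σ).2 hlam0)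
    exact h6 (by rw [hlam, wq])
  have h7 : r1 = Complex.normSq (W v) / Complex.normSq (W (τ lam)) * rq := by
    field_simp
    linarith
  rw [h7]
  have h8 : 0 < rq ^ 2 := by positivity
  have h9 : 0 < Complex.normSq (W v) / Complex.normSq (W (τ lam)) := div_pos h5 h4
  calc 0 < Complex.normSq (W v) / Complex.normSq (W (τ lam)) * rq ^ 2 := mul_pos h9 h8
    _ = rq * (Complex.normSq (W v) / Complex.normSq (W (τ lam)) * rq) := by ring

end Vale.Agent.P011.D4X.H547
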